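import Vale.Agent.P241.H758.WCofib
import Vale.Agent.P251.G.FC

/-!
# P241: free finite cell spaces with an action of a finite group

`FreeFC X` : `X` is (up to equivariant homotopy equivalence) built from finitely many free cells
`W × ℝⁿ` along equivariant cofibrations.

* `FreeFC.orb` : the orbit space of a free finite cell space is a finite cell space;
* `FreeFC.tensorRight` : `FreeFC A` implies `FreeFC (A ⊗ Y)` if the underlying space of `Y` is `FC`;
* `FreeFC.fc` : the underlying space is a finite cell space.
-/

open CategoryTheory MonoidalCategory Limits Topology OnePoint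

namespace Vale.Agent.P241.H758

open Vale.Agent.P251.G Vale.Agent.P251.G.LC Vale.Agent.P251.H Vale.Agent.P241.H933

variable {W : Type} [Group W]

/-! ### Quotients -/

section quot

variable {A B C C' Z : LC}

theorem exists_desc_surj (q : B ⟶ C) (hq : Function.Surjective (app q)) (f : B ⟶ Z)
    (hf : ∀ b b', app q b = app q b' → app f b = app f b') : ∃ f' : C ⟶ Z, q ≫ f' = f := by
  choose s hs using hq
  have hq' : Function.Surjective (app q) := fun b => ⟨s b, hs b⟩
  have key : ∀ x, app f (s (app q x)) = app f x := fun x => hf _ _ (hs (app q x))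
  refine ⟨⟨⟨fun y => app f (s y), ?_⟩, ?_⟩, ?_⟩
  · refine ((continuous_app q).isClosedMap.isQuotientMap (continuous_app q) hq').continuous_iff.mpr
      ?_
    have h1 : (fun y => app f (s y)) ∘ app q = app f := funext key
    rw [h1]
    exact continuous_app f
  · have h1 := key ∞
    rw [app_infty, app_infty] at h1
    exact h1
  · apply hom_ext'
    intro x
    exact key x

theorem epi_of_surj (q : B ⟶ C) (hq : Function.Surjective (app q)) {f g : C ⟶ Z}
    (h : q ≫ f = q ≫ g) : f = g := by
  apply hom_ext'
  intro y
  obtain ⟨x, rfl⟩ := hq y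
  exact congrArg (fun k : B ⟶ Z => app k x) h

/-- two quotients with the same identifications -/
theorem exists_iso_of_surj (q : B ⟶ C) (hq : Function.Surjective (app q)) (q' : B ⟶ C')
    (hq' : Function.Surjective (app q'))
    (h : ∀ b b', app q b = app q b' ↔ app q' b = app q' b') :
    ∃ e : C ≅ C', q ≫ e.hom = q' := by
  obtain ⟨f, hf⟩ := exists_desc_surj q hq q' fun b b' => (h b b').mp
  obtain ⟨g, hg⟩ := exists_desc_surj q' hq' q fun b b' => (h b b').mpr
  refine ⟨⟨f, g, ?_, ?_⟩, hf⟩
  · apply epi_of_surj q hq
    rw [← Category.assoc, hf, hg, Category.comp_id]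
  · apply epi_of_surj q' hq'
    rw [← Category.assoc, hg, hf, Category.comp_id]

/-- `q : B ⟶ C` is the quotient by the image of `i : A ⟶ B`. -/
def LQuot (i : A ⟶ B) (q : B ⟶ C) : Prop :=
  Function.Surjective (app q) ∧ ∀ b b', app q b = app q b' ↔
    b = b' ∨ (b ∈ Set.range (app i) ∧ b' ∈ Set.range (app i))

theorem cofMap_surjective (i : A ⟶ B) : Function.Surjective (app (cofMap i)) := by
  intro y
  induction y using OnePoint.rec with
  | infty => exact ⟨∞, app_infty _⟩
  | coe u => exact ⟨_, app_cofMap_coe i u⟩

theorem lQuot_cofMap (i : A ⟶ B) : LQuot i (cofMap i) := by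
  refine ⟨cofMap_surjective i, fun b b' => ?_⟩
  have hinf : (∞ : OnePoint B) ∈ Set.range (app i) := ⟨∞, app_infty i⟩
  constructor
  · intro h
    by_cases hb : b ∈ Set.range (app i)
    · right
      refine ⟨hb, ?_⟩
      rw [app_cofMap_of_mem i hb] at h
      rcases (app_cofMap_eq_infty_iff i b').mp h.symm with rfl | h'
      · exact hinf
      · exact h'
    · by_cases hb' : b' ∈ Set.range (app i)
      · exfalso
        rw [app_cofMap_of_mem i hb'] at h
        rcases (app_cofMap_eq_infty_iff i b).mp h with rfl | h'
        · exact hb hinf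
        · exact hb h'
      · left
        obtain ⟨c, rfl⟩ := OnePoint.ne_infty_iff_exists.mp (fun e : b = ∞ => hb (e ▸ hinf))
        obtain ⟨c', rfl⟩ := OnePoint.ne_infty_iff_exists.mp (fun e : b' = ∞ => hb' (e ▸ hinf))
        have h1 := app_cofMap_coe i ⟨c, hb⟩
        have h2 := app_cofMap_coe i ⟨c', hb'⟩
        have h3 : c = c' :=
          congrArg Subtype.val (OnePoint.coe_injective (h1.symm.trans (h.trans h2)))
        rw [h3]
  · rintro (rfl | ⟨h1, h2⟩)
    · rfl
    · rw [app_cofMap_of_mem i h1, app_cofMap_of_mem i h2]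

theorem fc_of_lQuot {i : A ⟶ B} {q : B ⟶ C} (hi : Cofib i) (hq : LQuot i q) (hA : FC A)
    (hC : FC C) : FC B := by
  obtain ⟨e, -⟩ := exists_iso_of_surj (cofMap i) (cofMap_surjective i) q hq.1 fun b b' =>
    ((lQuot_cofMap i).2 b b').trans (hq.2 b b').symm
  exact FC.of_ext hi hA e hC

end quot

/-- `q : B ⟶ C` is the quotient by the image of `i : A ⟶ B`. -/
def WQuot {A B C : Action LC W} (i : A ⟶ B) (q : B ⟶ C) : Prop := LQuot i.hom q.hom

/-! ### The group as a free orbit -/

section reg

variable [Finite W]

/-- the group as a discrete space -/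
def Dsc (W : Type) : Type := W

instance : TopologicalSpace (Dsc W) := ⊥

instance : DiscreteTopology (Dsc W) := ⟨rfl⟩

instance : Finite (Dsc W) := inferInstanceAs (Finite W)

instance : CompactSpace (Dsc W) := Finite.compactSpace

instance : LocallyCompactSpace (Dsc W) := inferInstance

/-- left multiplication on the group -/
def regMul (g : W) : Dsc W ≃ₜ Dsc W where
  toFun := fun x : W => (g * x : W)
  invFun := fun x : W => (g⁻¹ * x : W)
  left_inv := fun x : W => inv_mul_cancel_left g x
  right_inv := fun x : W => mul_inv_cancel_left g x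
  continuous_toFun := continuous_of_discreteTopology
  continuous_invFun := continuous_of_discreteTopology

omit [Finite W] in
theorem regMul_apply (g x : W) : regMul g (x : Dsc W) = (g * x : W) := rfl

/-- the action of `g` on the group -/
def regAc (g : W) : LC.of (Dsc W) ⟶ LC.of (Dsc W) :=
  (ofHomeo (X := LC.of (Dsc W)) (Y := LC.of (Dsc W)) (regMul (W := W) g)).hom

/-- the point of the one-point compactification given by an element of the group -/
def dpt (x : W) : OnePoint (LC.of (Dsc W)) := OnePoint.some (X := Dsc W) x

theorem app_regAc (g x : W) : app (regAc g) (dpt x) = dpt (g * x) := rfl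

omit [Group W] in
theorem dsc_ext {Z : LC} {f g : LC.of (Dsc W) ⟶ Z} (h : ∀ x : W, app f (dpt x) = app g (dpt x)) :
    f = g := LC.hom_ext h

/-- the group `W` with left multiplication -/
def regW (W : Type) [Group W] [Finite W] : Action LC W :=
  mkAct (LC.of (Dsc W)) regAc
    (by
      apply dsc_ext
      intro x
      rw [app_regAc, one_mul]
      rfl)
    (by
      intro g h
      apply dsc_ext
      intro x
      rw [app_regAc, mul_assoc]
      rfl)

/-- Free finite cell spaces with an action of `W`. -/
inductive FreeFC : Action LC W → Prop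
  | empty (X : Action LC W) (h : IsEmpty X.V) : FreeFC X
  | cell (n : ℕ) : FreeFC (regW W ⊗ tr W (Sph n))
  | hequiv {X Y : Action LC W} : FreeFC X → WHEquiv X Y → FreeFC Y
  | ext {A B C : Action LC W} {i : A ⟶ B} {q : B ⟶ C} :
      WCofib i → WQuot i q → FreeFC A → FreeFC C → FreeFC B

end reg

end Vale.Agent.P241.H758
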