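import Vale.Agent.P241.H933.ActStab
import Vale.Agent.P251.G.Cofib
import Mathlib.Topology.Algebra.ConstMulAction

/-!
# P241: orbit spaces of spaces with an action of a finite group

`IsOrb X π` : `π : X.V ⟶ Y` identifies (the one-point compactification of) `Y` with the orbit space
of (the one-point compactification of) `X`.
-/

open CategoryTheory MonoidalCategory Limits Topology OnePoint

namespace Vale.Agent.P241.H758

open Vale.Agent.P251.G Vale.Agent.P251.G.LC Vale.Agent.P251.H Vale.Agent.P241.H933

variable {W : Type} [Group W]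

/-- `π` identifies `Y` with the orbit space of `X`. -/
structure IsOrb (X : Action LC W) {Y : LC} (π : X.V ⟶ Y) : Prop where
  surj : Function.Surjective (app π)
  fib : ∀ a b, app π a = app π b ↔ ∃ g, app (X.ρ g) a = b

theorem app_ρ_one (X : Action LC W) (x : OnePoint X.V) : app (X.ρ 1) x = x := by
  rw [map_one]
  rfl

theorem app_ρ_mul (X : Action LC W) (g h : W) (x : OnePoint X.V) :
    app (X.ρ (g * h)) x = app (X.ρ g) (app (X.ρ h) x) := by
  rw [map_mul]
  rfl

theorem app_ρ_inv (X : Action LC W) (g : W) (x : OnePoint X.V) :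
    app (X.ρ g⁻¹) (app (X.ρ g) x) = x := by
  rw [← app_ρ_mul, inv_mul_cancel, app_ρ_one]

theorem app_ρ_inv' (X : Action LC W) (g : W) (x : OnePoint X.V) :
    app (X.ρ g) (app (X.ρ g⁻¹) x) = x := by
  rw [← app_ρ_mul, mul_inv_cancel, app_ρ_one]

theorem app_hom {X Y : Action LC W} (f : X ⟶ Y) (g : W) (x : OnePoint X.V) :
    app f.hom (app (X.ρ g) x) = app (Y.ρ g) (app f.hom x) := by
  have h := f.comm g
  exact congrArg (fun k : X.V ⟶ Y.V => app k x) h

/-- the action on the one-point compactification -/
@[reducible] def ptAct (X : Action LC W) : MulAction W (OnePoint X.V) where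
  smul g x := app (X.ρ g) x
  one_smul x := app_ρ_one X x
  mul_smul g h x := app_ρ_mul X g h x

namespace IsOrb

variable {X : Action LC W} {Y : LC} {π : X.V ⟶ Y}

theorem isQuotientMap (_h : IsOrb X π) (hs : Function.Surjective (app π)) :
    IsQuotientMap (app π) :=
  (continuous_app π).isClosedMap.isQuotientMap (continuous_app π) hs

theorem comp_ρ (h : IsOrb X π) (g : W) : X.ρ g ≫ π = π := by
  apply LC.hom_ext
  intro x
  exact ((h.fib x _).mpr ⟨g, rfl⟩).symm

/-- the universal property of the orbit space -/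
theorem exists_desc (h : IsOrb X π) {Z : LC} (f : X.V ⟶ Z) (hf : ∀ g, X.ρ g ≫ f = f) :
    ∃ f' : Y ⟶ Z, π ≫ f' = f := by
  have hf' : ∀ g (x : OnePoint X.V), app f (app (X.ρ g) x) = app f x := fun g x =>
    congrArg (fun k : X.V ⟶ Z => app k x) (hf g)
  choose s hs using h.surj
  have key : ∀ x, app f (s (app π x)) = app f x := by
    intro x
    obtain ⟨g, hg⟩ := (h.fib _ _).mp (hs (app π x))
    have h1 := hf' g (s (app π x))
    rw [hg] at h1
    exact h1.symm
  refine ⟨⟨⟨fun y => app f (s y), ?_⟩, ?_⟩, ?_⟩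
  · refine (h.isQuotientMap h.surj).continuous_iff.mpr ?_
    have h1 : (fun y => app f (s y)) ∘ app π = app f := funext key
    rw [h1]
    exact continuous_app f
  · have h1 := key ∞
    rw [app_infty, app_infty] at h1
    exact h1
  · apply LC.hom_ext
    intro x
    exact key x

theorem epi (h : IsOrb X π) {Z : LC} {f g : Y ⟶ Z} (e : π ≫ f = π ≫ g) : f = g := by
  apply LC.hom_ext
  intro y
  obtain ⟨x, hx⟩ := h.surj y
  rw [← hx]
  exact congrArg (fun k : X.V ⟶ Z => app k x) e

end IsOrb

/-! ### Existence -/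

theorem app_eq_infty_iff (X : Action LC W) (g : W) (x : OnePoint X.V) :
    app (X.ρ g) x = ∞ ↔ x = ∞ := by
  constructor
  · intro h
    have h1 := congrArg (app (X.ρ g⁻¹)) h
    rw [app_ρ_inv, app_infty] at h1
    exact h1
  · rintro rfl
    exact app_infty _

section exist

variable [Finite W] (X : Action LC W)

/-- the orbit space of the one-point compactification -/
abbrev OrbQ : Type := Quotient (@MulAction.orbitRel W (OnePoint X.V) _ (ptAct X))

theorem t2_orbQ : T2Space (OrbQ X) := by
  let _ := ptAct X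
  have : ContinuousConstSMul W (OnePoint X.V) := ⟨fun g => continuous_app (X.ρ g)⟩
  infer_instance

/-- the base point of the orbit space -/
abbrev orbPt : OrbQ X := Quotient.mk _ ∞

/-- the orbit space -/
noncomputable def orbS : LC :=
  haveI := t2_orbQ X
  haveI : LocallyCompactSpace {q : OrbQ X // q ≠ orbPt X} :=
    (isOpen_ne (x := orbPt X)).locallyCompactSpace
  LC.of {q : OrbQ X // q ≠ orbPt X}

/-- the one-point compactification of the orbit space -/
noncomputable def orbHomeo : OnePoint (orbS X) ≃ₜ OrbQ X :=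
  haveI := t2_orbQ X
  OnePoint.equivOfIsEmbeddingOfRangeEq (orbPt X) (fun q : {q : OrbQ X // q ≠ orbPt X} => q.1)
    IsEmbedding.subtypeVal (Subtype.range_val (s := {q : OrbQ X | q ≠ orbPt X}))

theorem orbHomeo_infty : orbHomeo X ∞ = orbPt X := rfl

/-- the projection to the orbit space -/
noncomputable def orbπ : X.V ⟶ orbS X :=
  ⟨⟨fun x => (orbHomeo X).symm (Quotient.mk _ x),
    (orbHomeo X).symm.continuous.comp continuous_quotient_mk'⟩, by
      change (orbHomeo X).symm (orbPt X) = ∞
      rw [← orbHomeo_infty, Homeomorph.symm_apply_apply]⟩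

theorem app_orbπ (x : OnePoint X.V) : app (orbπ X) x = (orbHomeo X).symm (Quotient.mk _ x) := rfl

theorem isOrb_orbπ : IsOrb X (orbπ X) where
  surj y := by
    obtain ⟨x, hx⟩ := Quotient.exists_rep (orbHomeo X y)
    refine ⟨x, ?_⟩
    rw [app_orbπ]
    exact (congrArg _ hx).trans ((orbHomeo X).symm_apply_apply y)
  fib a b := by
    let _ := ptAct X
    rw [app_orbπ, app_orbπ, (orbHomeo X).symm.injective.eq_iff]
    rw [eq_comm]
    exact Quotient.eq (r := MulAction.orbitRel W (OnePoint X.V)) (x := b) (y := a)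

end exist

/-- the underlying map of the action on a tensor product -/
theorem app_tensor_ρ (X Y : Action LC W) (g : W) (x : OnePoint X.V) (y : OnePoint Y.V) :
    app ((X ⊗ Y).ρ g) (smash x y) = smash (app (X.ρ g) x) (app (Y.ρ g) y) := by
  rw [Action.tensor_ρ]
  exact app_tensorHom_smash (X.ρ g) (Y.ρ g) x y

theorem app_triv_ρ (K : LC) (g : W) (x : OnePoint K) :
    app (((triv LC W).obj K).ρ g) x = x := rfl

namespace IsOrb

variable {X X' : Action LC W} {Y Y' : LC} {π : X.V ⟶ Y} {π' : X'.V ⟶ Y'}

theorem app_eq_infty (h : IsOrb X π) {x : OnePoint X.V} : app π x = ∞ ↔ x = ∞ := by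
  constructor
  · intro h1
    rw [← app_infty π] at h1
    obtain ⟨g, hg⟩ := (h.fib _ _).mp h1.symm
    rw [app_infty] at hg
    exact hg.symm
  · rintro rfl
    exact app_infty _

/-- the product with a space with trivial action -/
theorem tensorRight (h : IsOrb X π) (K : LC) :
    IsOrb (X ⊗ (triv LC W).obj K) (Y := Y ⊗ K) (π ▷ K) where
  surj z := by
    obtain ⟨y, k, rfl⟩ := smash_surjective z
    obtain ⟨x, rfl⟩ := h.surj y
    exact ⟨smash x k, app_whiskerRight_smash π K x k⟩
  fib a b := by
    obtain ⟨x, k, rfl⟩ := smash_surjective a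
    obtain ⟨x', k', rfl⟩ := smash_surjective b
    have e1 : app (π ▷ K) (smash x k) = smash (app π x) k := app_whiskerRight_smash π K x k
    have e2 : app (π ▷ K) (smash x' k') = smash (app π x') k' :=
      app_whiskerRight_smash π K x' k'
    constructor
    · intro h1
      replace h1 : smash (app π x) k = smash (app π x') k' := e1.symm.trans (h1.trans e2)
      have key : (∃ g, app (X.ρ g) x = x' ∧ k = k') ∨
          (smash x k = ∞ ∧ smash x' k' = ∞) := by
        by_cases hk : smash x k = ∞
        · right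
          refine ⟨hk, ?_⟩
          have h2 : smash (app π x) k = ∞ := by
            rw [smash_eq_infty] at hk ⊢
            rcases hk with hk | hk
            · exact Or.inl (h.app_eq_infty.mpr hk)
            · exact Or.inr hk
          rw [h2] at h1
          have h3 := smash_eq_infty.mp h1.symm
          rw [smash_eq_infty]
          rcases h3 with h3 | h3
          · exact Or.inl (h.app_eq_infty.mp h3)
          · exact Or.inr h3
        · left
          have hx : x ≠ ∞ := fun e => hk (smash_eq_infty.mpr (Or.inl e))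
          have hk' : k ≠ ∞ := fun e => hk (smash_eq_infty.mpr (Or.inr e))
          have hπ : app π x ≠ ∞ := fun e => hx (h.app_eq_infty.mp e)
          have h4 : smash (app π x') k' ≠ ∞ := by
            rw [← h1]
            intro e
            rcases smash_eq_infty.mp e with e | e
            · exact hπ e
            · exact hk' e
          have hπ' : app π x' ≠ ∞ := fun e => h4 (smash_eq_infty.mpr (Or.inl e))
          have hk'' : k' ≠ ∞ := fun e => h4 (smash_eq_infty.mpr (Or.inr e))
          obtain ⟨y, hy⟩ := OnePoint.ne_infty_iff_exists.mp hπ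
          obtain ⟨y', hy'⟩ := OnePoint.ne_infty_iff_exists.mp hπ'
          obtain ⟨c, rfl⟩ := OnePoint.ne_infty_iff_exists.mp hk'
          obtain ⟨c', rfl⟩ := OnePoint.ne_infty_iff_exists.mp hk''
          rw [← hy, ← hy', smash_coe_coe, smash_coe_coe] at h1
          have h5 := OnePoint.coe_injective h1
          have h6 : y = y' := congrArg Prod.fst h5
          have h7 : c = c' := congrArg Prod.snd h5
          obtain ⟨g, hg⟩ := (h.fib x x').mp (by rw [← hy, ← hy', h6])
          exact ⟨g, hg, by rw [h7]⟩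
      rcases key with ⟨g, hg, rfl⟩ | ⟨h1, h2⟩
      · refine ⟨g, ?_⟩
        rw [app_tensor_ρ, hg]
        rfl
      · refine ⟨1, ?_⟩
        rw [app_ρ_one, h1, h2]
    · rintro ⟨g, hg⟩
      replace hg : smash (app (X.ρ g) x) k = smash x' k' :=
        (app_tensor_ρ X ((triv LC W).obj K) g x k).symm.trans hg
      refine e1.trans (Eq.trans ?_ e2.symm)
      have h1 : app π (app (X.ρ g) x) = app π x := ((h.fib _ _).mpr ⟨g, rfl⟩).symm
      have h2 : app (π ▷ K) (smash (app (X.ρ g) x) k) = app (π ▷ K) (smash x' k') :=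
        congrArg (app (π ▷ K)) hg
      have h3 : app (π ▷ K) (smash (app (X.ρ g) x) k) = smash (app π (app (X.ρ g) x)) k :=
        app_whiskerRight_smash π K _ k
      rw [← h1]
      exact h3.symm.trans (h2.trans e2)

/-- equivariant maps to spaces with trivial action factor through the orbit space -/
theorem exists_desc_triv (h : IsOrb X π) {Z : LC} (f : X ⟶ (triv LC W).obj Z) :
    ∃ f' : Y ⟶ Z, π ≫ f' = f.hom :=
  h.exists_desc f.hom fun g => (f.comm g).trans (Category.comp_id _)

/-- the equivariant map given by a map out of the orbit space -/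
def lift (h : IsOrb X π) {Z : LC} (f : Y ⟶ Z) : X ⟶ (triv LC W).obj Z where
  hom := π ≫ f
  comm g := by
    change X.ρ g ≫ π ≫ f = (π ≫ f) ≫ 𝟙 Z
    rw [← Category.assoc, h.comp_ρ, Category.comp_id]

@[simp] theorem lift_hom (h : IsOrb X π) {Z : LC} (f : Y ⟶ Z) : (h.lift f).hom = π ≫ f := rfl

theorem exists_lift_eq (h : IsOrb X π) {Z : LC} (f : X ⟶ (triv LC W).obj Z) :
    ∃ f' : Y ⟶ Z, h.lift f' = f := by
  obtain ⟨f', hf⟩ := h.exists_desc_triv f
  exact ⟨f', Action.Hom.ext hf⟩

/-- functoriality -/
theorem exists_map (h : IsOrb X π) (h' : IsOrb X' π') (f : X ⟶ X') :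
    ∃ f' : Y ⟶ Y', π ≫ f' = f.hom ≫ π' :=
  h.exists_desc _ fun g => by
    have h1 := f.comm g
    rw [← Category.assoc, h1, Category.assoc, h'.comp_ρ]

theorem jincl_hom_eq (X : Action LC W) (t : unitInterval) :
    (jincl (triv LC W) t X).hom = incl t X.V := by
  rw [jincl, incl]
  simp only [Action.comp_hom, Action.whiskerLeft_hom, Action.rightUnitor_inv_hom]
  rfl

theorem comp_incl {A B : LC} (f : A ⟶ B) (t : unitInterval) :
    f ≫ incl t B = incl t A ≫ f ▷ II := by
  rw [incl, incl, Category.assoc, whisker_exchange, ← rightUnitor_inv_naturality_assoc]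

theorem comp_incl_comp {A B C : LC} (f : A ⟶ B) (t : unitInterval) (K : B ⊗ II ⟶ C)
    (H : A ⊗ II ⟶ C) (hK : f ▷ II ≫ K = H) : f ≫ incl t B ≫ K = incl t A ≫ H := by
  rw [← hK, ← Category.assoc, comp_incl, Category.assoc]

/-- homotopies of equivariant maps to a space with trivial action -/
theorem homotopic_desc_iff (h : IsOrb X π) {Z : LC} (f g : Y ⟶ Z) :
    JHomotopic (triv LC W) (h.lift f) (h.lift g) ↔ Homotopic f g := by
  constructor
  · rintro ⟨H, h0, h1⟩
    obtain ⟨K, hK⟩ := (h.tensorRight II).exists_desc_triv H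
    have key : ∀ t, π ≫ incl t Y ≫ K = (jincl (triv LC W) t X ≫ H).hom := by
      intro t
      rw [Action.comp_hom, jincl_hom_eq]
      exact comp_incl_comp π t K H.hom hK
    refine ⟨K, h.epi ?_, h.epi ?_⟩
    · rw [key, h0]
      rfl
    · rw [key, h1]
      rfl
  · rintro ⟨K, h0, h1⟩
    have key : ∀ t, π ≫ incl t Y ≫ K = (jincl (triv LC W) t X ≫
        (h.tensorRight II).lift K).hom := by
      intro t
      rw [Action.comp_hom, jincl_hom_eq]
      exact comp_incl_comp π t K _ rfl
    refine ⟨(h.tensorRight II).lift K, Action.Hom.ext ?_, Action.Hom.ext ?_⟩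
    · rw [← key, h0]
      rfl
    · rw [← key, h1]
      rfl

end IsOrb

end Vale.Agent.P241.H758
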