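import Vale.Agent.P241.H758.Orb

/-!
# P241: cofibrations of spaces with an action of a group

`WCofib i` is the equivariant homotopy extension property in `Action LC W`; it is equivalent to the
existence of an equivariant retraction of the cylinder onto the mapping cylinder.
-/

open CategoryTheory MonoidalCategory Limits Topology OnePoint

namespace Vale.Agent.P241.H758

open Vale.Agent.P251.G Vale.Agent.P251.G.LC Vale.Agent.P251.H Vale.Agent.P241.H933

variable {W : Type} [Group W]

/-- the space `K` with trivial action -/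
abbrev tr (W : Type) [Group W] (K : LC) : Action LC W := (triv LC W).obj K

/-- the inclusion of the space at time `t` in the cylinder -/
abbrev wincl (t : unitInterval) (X : Action LC W) : X ⟶ X ⊗ tr W II := jincl (triv LC W) t X

/-- equivariantly homotopic maps -/
abbrev WHtpic {X Y : Action LC W} (f g : X ⟶ Y) : Prop := JHomotopic (triv LC W) f g

/-- equivariant homotopy equivalence -/
def WHEquiv (X Y : Action LC W) : Prop :=
  ∃ (f : X ⟶ Y) (g : Y ⟶ X), WHtpic (f ≫ g) (𝟙 X) ∧ WHtpic (g ≫ f) (𝟙 Y)

/-- the equivariant homotopy extension property -/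
def WCofib {A B : Action LC W} (i : A ⟶ B) : Prop :=
  ∀ (Z : Action LC W) (f : B ⟶ Z) (H : A ⊗ tr W II ⟶ Z), wincl 0 A ≫ H = i ≫ f →
    ∃ K : B ⊗ tr W II ⟶ Z, wincl 0 B ≫ K = f ∧ i ▷ tr W II ≫ K = H

theorem wincl_hom (t : unitInterval) (X : Action LC W) : (wincl t X).hom = incl t X.V :=
  IsOrb.jincl_hom_eq X t

theorem hom_ext_W {X Y : Action LC W} {f g : X ⟶ Y} (h : f.hom = g.hom) : f = g :=
  Action.Hom.ext h

/-- the action of an element, as a morphism -/
abbrev ac (X : Action LC W) (g : W) : X.V ⟶ X.V := X.ρ g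

theorem ac_one (X : Action LC W) : ac X 1 = 𝟙 X.V := by
  rw [ac, map_one]
  rfl

theorem ac_mul (X : Action LC W) (g h : W) : ac X (g * h) = ac X h ≫ ac X g := by
  rw [ac, map_mul]
  rfl

theorem hom_ac {X Y : Action LC W} (f : X ⟶ Y) (g : W) : ac X g ≫ f.hom = f.hom ≫ ac Y g :=
  f.comm g

/-- constructor of spaces with action -/
def mkAct (Z : LC) (r : W → (Z ⟶ Z)) (h1 : r 1 = 𝟙 Z) (h2 : ∀ g h, r (g * h) = r h ≫ r g) :
    Action LC W where
  V := Z
  ρ :=
    { toFun := r
      map_one' := h1
      map_mul' := h2 }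

/-! ### Stable subspaces -/

section subAct

variable (X : Action LC W) {Z : LC} (m : Z ⟶ X.V) (hm : Function.Injective (app m))
  (hs : ∀ g z, app (m ≫ ac X g) z ∈ Set.range (app m))

/-- the action on a stable subspace -/
noncomputable def subAc (g : W) : Z ⟶ Z := factor m hm (m ≫ ac X g) (hs g)

theorem subAc_comp (g : W) : subAc X m hm hs g ≫ m = m ≫ ac X g := factor_comp _ _ _ _

/-- a stable subspace as a space with action -/
noncomputable def subAct : Action LC W :=
  mkAct Z (subAc X m hm hs)
    (by
      have := mono_of_injective hm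
      rw [← cancel_mono m, subAc_comp, ac_one, Category.comp_id, Category.id_comp])
    (fun g h => by
      have := mono_of_injective hm
      rw [← cancel_mono m, subAc_comp, ac_mul, Category.assoc, subAc_comp,
        ← Category.assoc (subAc _ _ _ _ _), subAc_comp, Category.assoc])

/-- the inclusion of a stable subspace -/
noncomputable def subActι : subAct X m hm hs ⟶ X where
  hom := m
  comm g := subAc_comp X m hm hs g

theorem subActι_hom : (subActι X m hm hs).hom = m := rfl

/-- maps to a stable subspace -/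
noncomputable def factorW {Y : Action LC W} (f : Y ⟶ X)
    (hf : ∀ y, app f.hom y ∈ Set.range (app m)) : Y ⟶ subAct X m hm hs where
  hom := factor m hm f.hom hf
  comm g := by
    have := mono_of_injective hm
    have h1 : (ac Y g ≫ factor m hm f.hom hf) ≫ m =
        (factor m hm f.hom hf ≫ subAc X m hm hs g) ≫ m := by
      rw [Category.assoc, factor_comp, hom_ac, Category.assoc, subAc_comp,
        ← Category.assoc (factor _ _ _ _), factor_comp]
    exact (cancel_mono m).mp h1

theorem factorW_comp {Y : Action LC W} (f : Y ⟶ X)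
    (hf : ∀ y, app f.hom y ∈ Set.range (app m)) :
    factorW X m hm hs f hf ≫ subActι X m hm hs = f :=
  hom_ext_W (factor_comp m hm f.hom hf)

theorem subActι_cancel {Y : Action LC W} {f g : Y ⟶ subAct X m hm hs}
    (h : f ≫ subActι X m hm hs = g ≫ subActι X m hm hs) : f = g := by
  have := mono_of_injective hm
  apply hom_ext_W
  have h1 := congrArg Action.Hom.hom h
  exact (cancel_mono m).mp h1

end subAct

/-! ### The retraction criterion -/

/-- Equivariant retraction criterion, first half. -/
theorem WCofib.exists_retr {A B : Action LC W} {i : A ⟶ B} (hi : WCofib i) :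
    ∃ r : B ⊗ tr W II ⟶ B ⊗ tr W II, IsRetr (Set.range (app i.hom)) r.hom := by
  have hS := isClosed_cylSet' (isClosed_range_app i.hom)
  let m : sub (Y := B.V ⊗ II) hS ⟶ (B ⊗ tr W II).V := subι (Y := B.V ⊗ II) hS
  have hm : Function.Injective (app m) := injective_subι (Y := B.V ⊗ II) hS
  have hmem : ∀ (b : OnePoint B.V) (t : unitInterval), (t = 0 ∨ b ∈ Set.range (app i.hom)) →
      smash b (t : OnePoint unitInterval) ∈ Set.range (app m) := by
    intro b t h
    refine (mem_range_subι (Y := B.V ⊗ II) hS _).mpr ?_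
    rintro ⟨b', t'⟩ hz
    have h1 : smash b (t : OnePoint unitInterval) =
      smash (b' : OnePoint B.V) (t' : OnePoint unitInterval) := hz
    obtain ⟨rfl, h2⟩ := smash_coe_eq_iff.mp h1
    have h3 : t = t' := h2.resolve_left (OnePoint.coe_ne_infty _)
    subst h3
    exact h
  have hmem' : ∀ p, p ∈ Set.range (app m) → ∃ (b : OnePoint B.V) (t : unitInterval),
      smash b (t : OnePoint unitInterval) = p ∧ (t = 0 ∨ b ∈ Set.range (app i.hom)) := by
    intro p hp
    obtain ⟨b, t, hbt⟩ := smash_coe_surjective (X := B.V) (Y := unitInterval) p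
    refine ⟨b, t, hbt, ?_⟩
    by_cases hb : b = ∞
    · subst hb
      exact Or.inr (infty_mem_range_app i.hom)
    · obtain ⟨b', rfl⟩ := OnePoint.ne_infty_iff_exists.mp hb
      exact (mem_range_subι (Y := B.V ⊗ II) hS p).mp hp (b', t) hbt.symm
  have hs : ∀ g z, app (m ≫ ac (B ⊗ tr W II) g) z ∈ Set.range (app m) := by
    intro g z
    rw [app_comp]
    obtain ⟨b, t, hbt, h⟩ := hmem' _ ⟨z, rfl⟩
    rw [← hbt]
    have h1 : app (ac (B ⊗ tr W II) g) (smash b (t : OnePoint unitInterval)) =
        smash (app (B.ρ g) b) (t : OnePoint unitInterval) := app_tensor_ρ B (tr W II) g b _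
    refine Set.mem_of_eq_of_mem h1 (hmem _ _ (h.imp id ?_))
    rintro ⟨a, rfl⟩
    exact ⟨app (A.ρ g) a, app_hom i g a⟩
  have e1 : ∀ p, app (i ▷ tr W II).hom p ∈ Set.range (app m) := by
    intro p
    obtain ⟨a, t, rfl⟩ := smash_coe_surjective (X := A.V) (Y := unitInterval) p
    have h1 : app (i ▷ tr W II).hom (smash a (t : OnePoint unitInterval)) =
      smash (app i.hom a) (t : OnePoint unitInterval) := app_whiskerRight_cyl i.hom a t
    exact Set.mem_of_eq_of_mem h1 (hmem _ t (Or.inr ⟨a, rfl⟩))
  have e0 : ∀ b, app (wincl 0 B).hom b ∈ Set.range (app m) := by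
    intro b
    have h1 : app (wincl 0 B).hom b = smash b ((0 : unitInterval) : OnePoint unitInterval) := by
      rw [wincl_hom]
      exact app_incl 0 B.V b
    exact Set.mem_of_eq_of_mem h1 (hmem b 0 (Or.inl rfl))
  obtain ⟨K, hK0, hK1⟩ := hi (subAct _ m hm hs) (factorW _ m hm hs (wincl 0 B) e0)
    (factorW _ m hm hs (i ▷ tr W II) e1)
    (by
      apply subActι_cancel
      rw [Category.assoc, Category.assoc, factorW_comp, factorW_comp]
      apply hom_ext_W
      have h1 := incl_naturality 0 i.hom
      rw [← wincl_hom, ← wincl_hom] at h1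
      exact h1)
  refine ⟨K ≫ subActι _ m hm hs, ?_, ?_, ?_⟩
  · intro b
    have h1 : wincl 0 B ≫ K ≫ subActι _ m hm hs = wincl 0 B := by
      rw [← Category.assoc, hK0, factorW_comp]
    have h2 := congrArg (fun k : B ⟶ B ⊗ tr W II => app k.hom b) h1
    have h3 : app (wincl 0 B).hom b = smash b ((0 : unitInterval) : OnePoint unitInterval) := by
      rw [wincl_hom]
      exact app_incl 0 B.V b
    rw [← h3]
    exact h2
  · rintro _ ⟨a, rfl⟩ t
    have h1 : i ▷ tr W II ≫ K ≫ subActι _ m hm hs = i ▷ tr W II := by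
      rw [← Category.assoc, hK1, factorW_comp]
    have h2 := congrArg (fun k : A ⊗ tr W II ⟶ B ⊗ tr W II =>
      app k.hom (smash a (t : OnePoint unitInterval))) h1
    have h3 : app (i ▷ tr W II).hom (smash a (t : OnePoint unitInterval)) =
      smash (app i.hom a) (t : OnePoint unitInterval) := app_whiskerRight_cyl i.hom a t
    rw [← h3]
    exact h2
  · intro p
    obtain ⟨b, t, h1, h2⟩ := hmem' (app m (app K.hom p)) ⟨_, rfl⟩
    exact ⟨b, t, h1.symm, h2⟩

theorem WCofib.injective {A B : Action LC W} {i : A ⟶ B} (hi : WCofib i) :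
    Function.Injective (app i.hom) := by
  obtain ⟨K, -, hK⟩ := hi (A ⊗ tr W HH) 0 (A ◁ (triv LC W).map coneMap') (by
    apply hom_ext_W
    apply hom_ext'
    intro a
    have h1 : app (wincl 0 A).hom a = smash a ((0 : unitInterval) : OnePoint unitInterval) := by
      rw [wincl_hom]
      exact app_incl 0 A.V a
    have h2 : app (A ◁ (triv LC W).map coneMap').hom
        (smash a ((0 : unitInterval) : OnePoint unitInterval)) = ∞ := by
      refine (app_whiskerLeft_smash A.V coneMap' a _).trans ?_
      exact (congrArg (smash a) app_coneMap_zero).trans (smash_infty_right a)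
    exact (congrArg (app (A ◁ (triv LC W).map coneMap').hom) h1).trans h2)
  intro a a' h
  have key : ∀ a : OnePoint A.V,
      app K.hom (smash (app i.hom a) ((1 : unitInterval) : OnePoint unitInterval)) =
      smash a ((0 : NNReal) : OnePoint NNReal) := by
    intro a
    have h1 := congrArg (fun k : A ⊗ tr W II ⟶ A ⊗ tr W HH =>
      app k.hom (smash a ((1 : unitInterval) : OnePoint unitInterval))) hK
    have h2 : app (i ▷ tr W II).hom (smash a ((1 : unitInterval) : OnePoint unitInterval)) =
      smash (app i.hom a) ((1 : unitInterval) : OnePoint unitInterval) :=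
        app_whiskerRight_cyl i.hom a 1
    have h3 : app (A ◁ (triv LC W).map coneMap').hom
        (smash a ((1 : unitInterval) : OnePoint unitInterval)) =
        smash a ((0 : NNReal) : OnePoint NNReal) :=
      (app_whiskerLeft_smash A.V coneMap' a _).trans (congrArg (smash a) app_coneMap_one)
    exact (congrArg (app K.hom) h2).symm.trans (h1.trans h3)
  have h2 := (key a).symm.trans ((congrArg _ (by rw [h])).trans (key a'))
  exact (smash_coe_eq_iff.mp h2).1

/-- the underlying map of an equivariant cofibration is a cofibration -/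
theorem WCofib.cofib {A B : Action LC W} {i : A ⟶ B} (hi : WCofib i) : Cofib i.hom := by
  obtain ⟨r, hr⟩ := hi.exists_retr
  exact cofib_of_isRetr hi.injective hr

/-- Equivariant retraction criterion, second half. -/
theorem wcofib_of_retr {A B : Action LC W} {i : A ⟶ B} (hi : Function.Injective (app i.hom))
    {r : B ⊗ tr W II ⟶ B ⊗ tr W II} (hr : IsRetr (Set.range (app i.hom)) r.hom) : WCofib i := by
  intro Z f H hH
  obtain ⟨K, k0, k1⟩ := cofib_of_isRetr hi hr Z.V f.hom H.hom (by
    have h1 := congrArg Action.Hom.hom hH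
    rw [← wincl_hom]
    exact h1)
  have K0 : ∀ b : OnePoint B.V, app K (smash b ((0 : unitInterval) : OnePoint unitInterval)) =
      app f.hom b := by
    intro b
    rw [← app_incl, ← app_comp, k0]
  have K1 : ∀ (a : OnePoint A.V) (t : unitInterval),
      app K (smash (app i.hom a) (t : OnePoint unitInterval)) =
        app H.hom (smash a (t : OnePoint unitInterval)) := by
    intro a t
    rw [← app_whiskerRight_cyl]
    exact congrArg (fun k : A.V ⊗ II ⟶ Z.V => app k (smash a (t : OnePoint unitInterval))) k1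
  have R0 : ∀ b : OnePoint B.V, app r.hom (smash b ((0 : unitInterval) : OnePoint unitInterval)) =
      smash b ((0 : unitInterval) : OnePoint unitInterval) := hr.zero
  have key : ∀ g (b : OnePoint B.V) (t : unitInterval), (t = 0 ∨ b ∈ Set.range (app i.hom)) →
      app K (smash (app (B.ρ g) b) (t : OnePoint unitInterval)) =
        app (Z.ρ g) (app K (smash b (t : OnePoint unitInterval))) := by
    rintro g b t (rfl | ⟨a, rfl⟩)
    · rw [K0, K0, app_hom]
    · have h1 : app (B.ρ g) (app i.hom a) = app i.hom (app (A.ρ g) a) := (app_hom i g a).symm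
      rw [h1, K1, K1]
      have h2 := app_hom H g (smash a (t : OnePoint unitInterval))
      have h3 : app ((A ⊗ tr W II).ρ g) (smash a (t : OnePoint unitInterval)) =
        smash (app (A.ρ g) a) (t : OnePoint unitInterval) := app_tensor_ρ A (tr W II) g a _
      rw [← h2]
      exact congrArg (app H.hom) h3.symm
  refine ⟨⟨r.hom ≫ K, fun g => ?_⟩, ?_, ?_⟩
  · change ac (B ⊗ tr W II) g ≫ r.hom ≫ K = (r.hom ≫ K) ≫ ac Z g
    apply hom_ext'
    intro p
    have h1 : app (ac (B ⊗ tr W II) g ≫ r.hom ≫ K) p =
        app K (app ((B ⊗ tr W II).ρ g) (app r.hom p)) := congrArg (app K) (app_hom r g p)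
    have h2 : app ((r.hom ≫ K) ≫ ac Z g) p = app (Z.ρ g) (app K (app r.hom p)) := rfl
    obtain ⟨b, t, h3, h4⟩ := hr.range p
    have h5 : app ((B ⊗ tr W II).ρ g) (smash b (t : OnePoint unitInterval)) =
        smash (app (B.ρ g) b) (t : OnePoint unitInterval) := app_tensor_ρ B (tr W II) g b _
    refine h1.trans (Eq.trans ?_ h2.symm)
    refine (congrArg (fun z => app K (app ((B ⊗ tr W II).ρ g) z)) h3).trans ?_
    refine (congrArg (app K) h5).trans ?_
    refine (key g b t h4).trans ?_
    exact congrArg (fun z => app (Z.ρ g) (app K z)) h3.symm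
  · apply hom_ext_W
    change (wincl 0 B).hom ≫ r.hom ≫ K = f.hom
    apply hom_ext'
    intro b
    have h1 : app (wincl 0 B).hom b = smash b ((0 : unitInterval) : OnePoint unitInterval) := by
      rw [wincl_hom]
      exact app_incl 0 B.V b
    have h2 : app ((wincl 0 B).hom ≫ r.hom ≫ K) b = app K (app r.hom (app (wincl 0 B).hom b)) :=
      rfl
    rw [h2]
    refine (congrArg (fun z => app K (app r.hom z)) h1).trans ?_
    exact (congrArg (app K) (R0 b)).trans (K0 b)
  · apply hom_ext_W
    change (i ▷ tr W II).hom ≫ r.hom ≫ K = H.hom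
    apply hom_ext'
    intro p
    obtain ⟨a, t, rfl⟩ := smash_coe_surjective (X := A.V) (Y := unitInterval) p
    have h1 : app (i ▷ tr W II).hom (smash a (t : OnePoint unitInterval)) =
      smash (app i.hom a) (t : OnePoint unitInterval) := app_whiskerRight_cyl i.hom a t
    have h2 : app r.hom (smash (app i.hom a) (t : OnePoint unitInterval)) =
      smash (app i.hom a) (t : OnePoint unitInterval) := hr.mem _ ⟨a, rfl⟩ t
    have h3 : app ((i ▷ tr W II).hom ≫ r.hom ≫ K) (smash a (t : OnePoint unitInterval)) =
      app K (app r.hom (app (i ▷ tr W II).hom (smash a (t : OnePoint unitInterval)))) := rfl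
    refine h3.trans ?_
    refine (congrArg (fun z => app K (app r.hom z)) h1).trans ?_
    exact (congrArg (app K) h2).trans (K1 a t)

/-! ### Products -/

theorem isRetr_whiskerLeft {A B : LC} {i : A ⟶ B} {r : B ⊗ II ⟶ B ⊗ II}
    (hr : IsRetr (Set.range (app i)) r) (X : LC) :
    IsRetr (Set.range (app (X ◁ i))) ((α_ X B II).hom ≫ X ◁ r ≫ (α_ X B II).inv) := by
  refine ⟨?_, ?_, ?_⟩
  · intro p
    obtain ⟨x, b, rfl⟩ := smash_surjective (X := X) (Y := B) p
    rw [app_comp, app_comp]
    refine (congrArg _ (congrArg _ (app_associator_smash X B II x b _))).trans ?_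
    rw [app_whiskerLeft_smash, hr.zero]
    exact app_associator_inv_smash X B II x b _
  · intro p hp t
    obtain ⟨x, b, rfl⟩ := smash_surjective (X := X) (Y := B) p
    rw [app_comp, app_comp]
    refine (congrArg _ (congrArg _ (app_associator_smash X B II x b _))).trans ?_
    rcases (smash_mem_range_whiskerLeft X i x b).mp hp with rfl | h
    · exact (congrArg _ (app_whiskerLeft_smash X r ∞ _)).trans (app_infty (α_ X B II).inv)
    · rw [app_whiskerLeft_smash, hr.mem b h]
      exact app_associator_inv_smash X B II x b _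
  · intro p
    obtain ⟨p', t, rfl⟩ := smash_coe_surjective (X := (X ⊗ B : LC)) (Y := unitInterval) p
    obtain ⟨x, b, rfl⟩ := smash_surjective (X := X) (Y := B) p'
    obtain ⟨b', t', h1, h2⟩ := hr.range (smash b (t : OnePoint unitInterval))
    refine ⟨smash x b', t', ?_, ?_⟩
    · rw [app_comp, app_comp]
      refine (congrArg _ (congrArg _ (app_associator_smash X B II x b _))).trans ?_
      rw [app_whiskerLeft_smash, h1]
      exact app_associator_inv_smash X B II x b' _
    · rcases h2 with h2 | h2
      · exact Or.inl h2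
      · exact Or.inr (mem_range_whiskerLeft_smash X i (Or.inr h2))

theorem WCofib.whiskerLeft {A B : Action LC W} {i : A ⟶ B} (hi : WCofib i) (X : Action LC W) :
    WCofib (X ◁ i) := by
  obtain ⟨r, hr⟩ := hi.exists_retr
  refine wcofib_of_retr (injective_whiskerLeft' hi.injective X.V)
    (r := (α_ X B (tr W II)).hom ≫ X ◁ r ≫ (α_ X B (tr W II)).inv) ?_
  have h1 : ((α_ X B (tr W II)).hom ≫ X ◁ r ≫ (α_ X B (tr W II)).inv).hom =
      (α_ X.V B.V II).hom ≫ X.V ◁ r.hom ≫ (α_ X.V B.V II).inv := by
    simp only [Action.comp_hom, Action.whiskerLeft_hom, Action.associator_hom_hom,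
      Action.associator_inv_hom]
    rfl
  rw [h1]
  exact isRetr_whiskerLeft (i := i.hom) (r := r.hom) hr X.V

theorem WCofib.comp {A B C : Action LC W} {i : A ⟶ B} {j : B ⟶ C} (hi : WCofib i)
    (hj : WCofib j) : WCofib (i ≫ j) := by
  intro Z f H h
  obtain ⟨K, k0, k1⟩ := hi Z (j ≫ f) H (by rw [h, Category.assoc])
  obtain ⟨L, l0, l1⟩ := hj Z f K k0
  exact ⟨L, l0, by rw [MonoidalCategory.comp_whiskerRight, Category.assoc, l1, k1]⟩

theorem wincl_naturality (t : unitInterval) {X Y : Action LC W} (f : X ⟶ Y) :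
    wincl t X ≫ f ▷ tr W II = f ≫ wincl t Y := by
  apply hom_ext_W
  have h1 := incl_naturality t f.hom
  rw [← wincl_hom, ← wincl_hom] at h1
  exact h1

theorem wcofib_of_iso {A B : Action LC W} (e : A ≅ B) : WCofib e.hom := by
  intro Z f H h
  refine ⟨e.inv ▷ tr W II ≫ H, ?_, ?_⟩
  · rw [← Category.assoc, wincl_naturality, Category.assoc, h, Iso.inv_hom_id_assoc]
  · rw [← Category.assoc, ← MonoidalCategory.comp_whiskerRight, Iso.hom_inv_id,
      MonoidalCategory.id_whiskerRight, Category.id_comp]

theorem WCofib.whiskerRight {A B : Action LC W} {i : A ⟶ B} (hi : WCofib i)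
    (X : Action LC W) : WCofib (i ▷ X) := by
  have h1 : i ▷ X = (β_ A X).hom ≫ X ◁ i ≫ (β_ X B).hom := by
    rw [BraidedCategory.braiding_naturality_right, SymmetricCategory.symmetry_assoc]
  rw [h1]
  exact (wcofib_of_iso (β_ A X)).comp ((hi.whiskerLeft X).comp (wcofib_of_iso (β_ X B)))

end Vale.Agent.P241.H758
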